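import Crest.Agent.X262.Alg44.Main
import Crest.Agent.X262.Fam6.Main
import Crest.Agent.X262.Bl41.Diag
import Crest.Agent.X262.G4.Defs

/-!
# Row 262, G4 / ALG (helper44), part 5: `G4.Alg2Stmt` from the vanishing of one-forms
-/

set_option autoImplicit false

namespace Crest.Agent.X262.Alg44

theorem alg2_of (hQ : KV.IrrQ) : G4.Alg2Stmt := by
  intro F L _ _ _ _ _ B D n hA N hk hl
  obtain ⟨P, T, h1, h2, -, h3, h4, ⟨N'⟩⟩ := Fam6.exists_all (D := D) Bl41.nuStmt B.qt B.b B.Λ B.pf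
    B.LL_on B.pos hA.1 hA.2 B.u_ne B.par B.plk N.sy N.c0 N.a0 N.on N.w0
    (fun i j => (N.sc i j).sym) (fun i j => (N.sc i j).kn) (fun i j => (N.sc i j).dg) hk hl
  exact alg_of hQ B.b T h1 h2 h3 h4 B.cub N'

end Crest.Agent.X262.Alg44
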