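import Crest.Agent.X262.Alg44.Fin
import Crest.Agent.X262.StAmp.Main
import Crest.Agent.X262.Be94.Kap
import Crest.Agent.X262.Rig38.Main

/-!
# Row 262, G4 (helper44): the layer from START, LIFT and the vanishing of one-forms
-/

set_option autoImplicit false

namespace Crest.Agent.X262.Alg44

open Crest.Agent.X277 Crest.Agent.X277.BD

theorem ampStmt : G4.AmpStmt := fun F L _ _ _ _ _ B => by
  have hd : dim ℂ F = 2 := by simpa using Module.finrank_eq_card_basis B.b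
  have hf : Free (G4.box B.Λ B.LL - B.m • G4.exc B.Λ B.S.y) :=
    Lin.free (Lin.symm ⟨B.u, B.u_ne, B.plk⟩) (free_mxf _)
  exact ⟨StAmp.Sep.free (by omega) B.LL_on fun _ _ _ _ _ hu hu' hc =>
    StAmp.sep B.pf B.m_pos hf hu hu' hc,
    StAmp.ampStmt F L B.S.P _ _ hd B.pf _ B.LL_on _ B.m_pos hf⟩

/-- **G4** -/
theorem g4L_of (hQ : KV.IrrQ) (h0 : G4.StartStmt) (h1 : G4.LiftStmt) : Top.G4LStmt :=
  G4.g4L_of h0 ampStmt Be94.kapStmt h1 (fun _ _ _ _ _ _ _ Λ h => Fano21.genPt Λ h)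
    (fun _ _ _ _ _ _ _ Λ h => Fano21.nrmSec Λ h) Fano21.rsqStmt Rig38.rigStmt (alg2_of hQ)

end Crest.Agent.X262.Alg44
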