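import Crest.Agent.X262.Alg44.Basic
import Crest.Agent.X277.AN.A2Pa
import Crest.Agent.X277.Res.FinCov
import Crest.Agent.X277.Cns.Can
import Crest.Agent.X277.AN.G1Conn
import Crest.Agent.R276.IntC_448

/-!
# Row 262, G4 / ALG (helper44), part 3: the generic fibre is smooth

* `Pre.exists_sp`  : a point with integral coordinates specialises;
* `Pre.Lo_le`      : its local ring contains the local ring of the total space;
* `Pre.exists_crd` : coordinates lift;
* `Pre.sm`, `Pre.basis`, `Pre.essFT` : the generic fibre is smooth of the same dimension.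
-/

set_option autoImplicit false

open MvPolynomial
open scoped KaehlerDifferential

noncomputable section

namespace Crest.Agent.X262.Alg44

open Crest.Agent.X277 Crest.Agent.X277.Lef Crest.Agent.X277.AN.G1

variable {F E : Type} [Field F] [Algebra ℂ F] [Field E] [Algebra ℂ E]

/-- Taylor expansion of order one -/
theorem exists_taylor {σ A : Type*} [CommRing A] [Fintype σ] (β : σ → A) (q : MvPolynomial σ A) :
    ∃ h : σ → MvPolynomial σ A, q = C (eval β q) + ∑ k, h k * (X k - C (β k)) := by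
  classical
  induction q using MvPolynomial.induction_on with
  | C c => exact ⟨0, by simp⟩
  | add p q hp hq =>
    obtain ⟨h, h1⟩ := hp
    obtain ⟨h', h2⟩ := hq
    refine ⟨h + h', ?_⟩
    simp only [Pi.add_apply, add_mul, Finset.sum_add_distrib, map_add]
    linear_combination h1 + h2
  | mul_X p i hp =>
    obtain ⟨h, h1⟩ := hp
    refine ⟨fun k => h k * X i + if k = i then C (eval β p) else 0, ?_⟩
    simp only [add_mul, Finset.sum_add_distrib, ite_mul, zero_mul, Finset.sum_ite_eq',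
      Finset.mem_univ, if_true, map_mul, eval_X, mul_right_comm _ (X i : MvPolynomial σ A),
      ← Finset.sum_mul]
    linear_combination X i * h1

theorem algIndep_of_crd {n : ℕ} {P : PModel ℂ F} (b : Module.Basis (Fin n) F Ω[F⁄ℂ]) {x : Pts P}
    {z : Fin n → F} (hz : (lp x).Crd z) : AlgebraicIndependent ℂ z := by
  have hj := jac_ne b hz
  refine R276.IntC_448.algebraicIndependent_of_det (fun l => pdD hj l) z ?_
  have h : (Matrix.of fun i j => pdD hj j (z i)) = 1 := by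
    ext i j
    rw [Matrix.of_apply, pdD_apply, pd_self hj, Matrix.one_apply]
    simp only [eq_comm]
  rw [h, Matrix.det_one]
  exact one_ne_zero

namespace Pre

variable {R : Red F E} {P : PModel ℂ F} {G : Pre R P} {i : Fin (P.N + 1)} {L : LP E}

theorem v_Ao (h1 : ∀ j, G.y j / G.y i ∈ L.O) (q : MvPolynomial (Fin (P.N + 1)) R.o) :
    aeval (fun j => G.y j / G.y i) (R.up q) ∈ L.O ∧
      L.v (aeval (fun j => G.y j / G.y i) (R.up q)) =
        eval (fun j => L.v (G.y j / G.y i)) (R.up q) :=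
  ⟨LP.aeval_mem h1 _, LP.v_aeval h1 _⟩

/-- specialisation of a point with integral coordinates -/
theorem exists_sp (h1 : ∀ j, G.y j / G.y i ∈ L.O) (h2 : ∀ j, L.v (G.y j / G.y i) ∈ R.o) :
    ∃ x ∈ pat P i, ∀ f ∈ R.Ao G.y i, f ∈ L.O ∧ L.v f ∈ R.o ∧ R.z (L.v f) = ev (R.r f) x := by
  have h3 : ∀ q : MvPolynomial (Fin (P.N + 1)) R.o, aeval (fun j => P.y j / P.y i) (R.dn q) = 0 →
      eval (fun j => R.z (L.v (G.y j / G.y i))) (R.dn q) = 0 := by
    intro q hq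
    obtain ⟨c, hc, h4, g, hg, h5⟩ := exists_ker (G := G) (Red.mem_Ao_iff.2 ⟨q, rfl⟩)
      ((r_aeval i q).trans hq)
    obtain ⟨q', rfl⟩ := Red.mem_Ao_iff.1 hg
    rw [← (Red.z_eval h2 q).2, ← (v_Ao h1 q).2, h5, LP.v_smul _ (v_Ao h1 q').1, (v_Ao h1 q').2,
      Red.z_mul hc (Red.z_eval h2 q').1, h4, zero_mul]
  let φ : P.A i →ₐ[ℂ] ℂ := AlgHom.liftOfSurjective (aeval (AN.G1.gen P i)) (gen_surj i)
    (aeval fun j => R.z (L.v (G.y j / G.y i))) (by
      intro p hp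
      obtain ⟨q, rfl⟩ := R.dn_surj p
      have h4 := congrArg Subtype.val (RingHom.mem_ker.1 hp)
      exact RingHom.mem_ker.2 (h3 q ((aeval_gen i _).symm.trans h4)))
  obtain ⟨x, hx, h4⟩ := exists_pt i φ
  refine ⟨x, hx, fun f hf => ?_⟩
  obtain ⟨q, rfl⟩ := Red.mem_Ao_iff.1 hf
  refine ⟨(v_Ao h1 q).1, (v_Ao h1 q).2 ▸ (Red.z_eval h2 q).1, ?_⟩
  rw [(v_Ao h1 q).2, (Red.z_eval h2 q).2, r_aeval, ← aeval_gen, h4]
  symm
  exact AlgHom.liftOfSurjective_apply _ _ _ _ _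

variable {x : Pts P}

theorem Lo_le (hx : x ∈ pat P i)
    (h : ∀ f ∈ R.Ao G.y i, f ∈ L.O ∧ L.v f ∈ R.o ∧ R.z (L.v f) = ev (R.r f) x) {f : E}
    (hf : f ∈ G.Lo x) : f ∈ L.O := by
  obtain ⟨a, ha, c, hc, h0, h1⟩ := (mem_Lo_iff hx).1 hf
  have h2 : L.v c ≠ 0 := fun h3 => h0 (by rw [← (h c hc).2.2, h3, Red.z_zero])
  obtain rfl : f = a / c := by rw [← h1, mul_div_cancel_right₀ _ (LP.ne_zero_of_ne h2)]
  exact LP.div_mem (h a ha).1 h2

/-- coordinates lift -/
theorem crd_of_sp (hL : L.Of (chart ℂ G.y i)) (hx : x ∈ pat P i)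
    (h : ∀ f ∈ R.Ao G.y i, f ∈ L.O ∧ L.v f ∈ R.o ∧ R.z (L.v f) = ev (R.r f) x) {n : ℕ}
    {J : Fin n → Fin (P.N + 1)} (hJ : (lp x).Crd fun l => P.y (J l) / P.y i) :
    L.Crd fun l => G.y (J l) / G.y i := by
  classical
  have h1 : ∀ j, G.y j / G.y i ∈ L.O := fun j => (h _ (Red.div_mem_Ao _ _ _)).1
  have h2 : ∀ j, L.v (G.y j / G.y i) ∈ R.o := fun j => (h _ (Red.div_mem_Ao _ _ _)).2.1
  let t : Fin (P.N + 1) → E := fun j => G.y j / G.y i - algebraMap ℂ E (L.v (G.y j / G.y i))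
  have ht : ∀ j, t j ∈ G.Lo x := fun j =>
    Ao_le_Lo hx (sub_mem (Red.div_mem_Ao _ _ _) (Red.cst_mem_Ao _ _ (h2 j)))
  have htr : ∀ j, R.r (t j) = P.y j / P.y i - algebraMap ℂ F ((lp x).v (P.y j / P.y i)) := by
    intro j
    rw [Red.r_sub (G.div_mem i j) (h2 j), R.r_cst (h2 j), (h _ (Red.div_mem_Ao _ _ _)).2.2,
      G.r_div]
  have htv : ∀ j, L.v (t j) = 0 := fun j => LP.v_sub_v (h1 j)
  let I : Submodule (G.Lo x) E := Submodule.span _ (Set.range t)
  let N : Submodule (G.Lo x) E := Submodule.span _ (Set.range fun l => t (J l))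
  let m : Ideal (G.Lo x) := RingHom.ker (R.ρ.comp (Subring.inclusion fun f hf => (Lo_spec hf).1))
  have hm : ∀ f : G.Lo x, f ∈ m ↔ R.r f = 0 := fun f => Iff.rfl
  have hI : ∀ g ∈ G.Lo x, L.v g = 0 → g ∈ I := by
    intro g hg h0
    obtain ⟨a, ha, c, hc, h3, h4⟩ := (mem_Lo_iff hx).1 hg
    obtain ⟨q, rfl⟩ := Red.mem_Ao_iff.1 ha
    obtain ⟨k, hk⟩ := exists_taylor (fun j => (⟨_, h2 j⟩ : R.o)) q
    have h5 : (eval (fun j => (⟨_, h2 j⟩ : R.o)) q : ℂ) = 0 := by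
      have h6 := (v_Ao h1 q).2
      rw [← h4, L.v_mul (Lo_le hx h hg) (h c hc).1, h0, zero_mul] at h6
      rw [h6, Red.up, eval_map]
      exact eval₂_comp_left R.o.subtype (RingHom.id _) _ q
    have h6 : g = ∑ j, (aeval (fun j => G.y j / G.y i) (R.up (k j)) / c) * t j := by
      rw [← mul_left_inj' (Red.ne_zero (LP.ne_zero_of_ne h3)), h4, hk, Finset.sum_mul]
      simp only [map_add, map_sum, map_mul, map_sub, Red.up_C, Red.up_X, aeval_C, aeval_X, h5,
        map_zero, zero_add]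
      refine Finset.sum_congr rfl fun j _ => ?_
      rw [mul_right_comm, div_mul_cancel₀ _ (Red.ne_zero (LP.ne_zero_of_ne h3))]
    rw [h6]
    exact sum_mem fun j _ => I.smul_mem ⟨_, div_mem_Lo (Ao_le_Lo hx (Red.mem_Ao_iff.2 ⟨_, rfl⟩))
      (Ao_le_Lo hx hc) h3⟩ (Submodule.subset_span ⟨j, rfl⟩)
  have key : I ≤ N := by
    refine Submodule.le_of_le_smul_of_le_jacobson_bot (I := m)
      (Submodule.fg_span (Set.finite_range t)) (fun f hf => Ideal.mem_jacobson_bot.2 fun g => ?_)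
      (Submodule.span_le.2 ?_)
    · have h3 : R.r ((f * g + 1 : G.Lo x) : E) = 1 := by
        change R.r (f * g + 1) = 1
        rw [R.r_add (mul_mem (Lo_spec f.2).1 (Lo_spec g.2).1) (one_mem _),
          R.r_mul (Lo_spec f.2).1 (Lo_spec g.2).1, (hm f).1 hf, zero_mul, zero_add, R.r_one]
      have h4 := inv_mem_Lo (f * g + 1).2 (by rw [h3]; simp [ev])
      exact IsUnit.of_mul_eq_one ⟨_, h4⟩ (Subtype.ext (mul_inv_cancel₀
        (Red.ne_zero (R := R) (h3 ▸ one_ne_zero))))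
    · rintro _ ⟨j, rfl⟩
      obtain ⟨c, hc, h3⟩ := hJ.gen _ (AN.G1.y_mem hx j)
      choose d hd h4 using fun l => G.exists_lift_Lo (hc l)
      have h5 : ∀ l, d l * t (J l) ∈ G.Lo x := fun l => mul_mem (hd l) (ht _)
      have h6 : t j - ∑ l, d l * t (J l) ∈ G.Lo x := sub_mem (ht j) (sum_mem fun l _ => h5 l)
      have h7 : R.r (t j - ∑ l, d l * t (J l)) = 0 := by
        rw [Red.r_sub (Lo_spec (ht j)).1 (sum_mem fun l _ => (Lo_spec (h5 l)).1),
          Red.r_sum fun l _ => (Lo_spec (h5 l)).1,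
          Finset.sum_congr rfl fun l _ => R.r_mul (Lo_spec (hd l)).1 (Lo_spec (ht _)).1]
        simp only [htr, h4]
        linear_combination h3
      have h8 : L.v (t j - ∑ l, d l * t (J l)) = 0 := by
        rw [LP.v_sub (Lo_le hx h (ht j)) (sum_mem fun l _ => Lo_le hx h (h5 l)),
          LP.v_sum _ fun l _ => Lo_le hx h (h5 l),
          Finset.sum_congr rfl fun l _ => L.v_mul (Lo_le hx h (hd l)) (Lo_le hx h (ht _))]
        simp [htv]
      have h9 : t j - ∑ l, d l * t (J l) ∈ m • I := by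
        obtain ⟨e, he, h10, g, hg, h11, h12⟩ := Red.exists_of_r_zero (Lo_spec h6).1 h7
        obtain ⟨a, rfl⟩ := Submodule.mem_span_singleton.1 h12
        have h13 := mem_Lo_of_Lk ((G.LK x).smul_mem (Lo_le_Lk h6) a) hg
        have h14 : (⟨_, Ao_le_Lo hx (Red.cst_mem_Ao _ _ he)⟩ : G.Lo x) ∈ m :=
          (hm _).2 (by
            change R.r (algebraMap ℂ E e) = 0
            rw [R.r_cst he, h10, map_zero])
        have h15 := Submodule.smul_mem_smul h14
          (hI _ h13 (by rw [LP.v_smul _ (Lo_le hx h h6), h8, mul_zero]))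
        rw [h11, Algebra.smul_def e]
        exact h15
      have h10 : ∑ l, d l * t (J l) ∈ N := sum_mem fun l _ =>
        N.smul_mem ⟨_, hd l⟩ (Submodule.subset_span ⟨l, rfl⟩)
      have h11 := Submodule.add_mem_sup h10 h9
      rwa [add_sub_cancel] at h11
  refine Cns.crd_of_gen (fun l => h1 _) hL ?_
  rintro _ ⟨j, rfl⟩
  obtain ⟨c, hc⟩ := (Submodule.mem_span_range_iff_exists_fun _).1
    (key (Submodule.subset_span ⟨j, rfl⟩))
  refine ⟨fun l => c l, fun l => Lo_le hx h (c l).2, ?_⟩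
  rw [← sub_eq_iff_eq_add']
  exact hc.symm

variable (G)

theorem isFrac (i : Fin (P.N + 1)) : IsFractionRing (chart ℂ G.y i) E := by
  have h : Res.Out.IsFr (chart ℂ G.y i) := Res.Out.IsFr.chart G.y_ne G.frac i
  refine IsFractionRing.of_field _ _ fun f => ?_
  obtain ⟨a, ha, c, hc, -, h1⟩ := h f
  exact ⟨⟨a, ha⟩, ⟨c, hc⟩, h1⟩

/-- every point of the generic fibre has coordinates -/
theorem exists_crd {n : ℕ} (b : Module.Basis (Fin n) F Ω[F⁄ℂ]) (i : Fin (P.N + 1))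
    (φ : chart ℂ G.y i →ₐ[ℂ] ℂ) :
    (lpAt φ).Fin' ∧ ∃ T : Fin n → E, (lpAt φ).Crd T ∧ AlgebraicIndependent ℂ T := by
  have := Res.Out.finiteType_chart (k := ℂ) G.y i
  have := G.isFrac i
  refine ⟨(LP.of_lpAt φ).fin, ?_⟩
  have h0 : ∀ j, G.y j / G.y i ∈ (lpAt φ).O := fun j => le_lpAt φ (div_mem_chart G.y i j)
  obtain ⟨k, -, h1, h2⟩ := R.exists_min Finset.univ (a := fun j => (lpAt φ).v (G.y j / G.y i))
    ⟨i, Finset.mem_univ i, by rw [div_self (G.y_ne i), LP.v_one]; exact one_ne_zero⟩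
  obtain ⟨ψ, hψ⟩ := Res.Out.exists_change G.y_ne (i := k) φ (by
    rw [AN.A2P.lo_eq]
    exact AN.A2P.un_iff.2 h1)
  rw [AN.A2P.lo_eq, AN.A2P.lo_eq] at hψ
  have h3 : ∀ j, G.y j / G.y k = (G.y j / G.y i) / (G.y k / G.y i) := fun j => by
    have := G.y_ne i
    field_simp
  have h4 : (lpAt φ).Of (chart ℂ G.y k) := by
    refine ⟨hψ ▸ le_lpAt ψ, fun f hf => ?_⟩
    obtain ⟨a, ha, c, hc, h5, h6⟩ := (LP.of_lpAt ψ).loc f (hψ ▸ hf)
    exact ⟨a, ha, c, hc, LP.ne_of_inv_mem (hψ ▸ LP.mem_of_ne h5) (LP.ne_zero_of_ne h5)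
      (hψ ▸ (lpAt ψ).inv_mem h5), h6⟩
  obtain ⟨x, hx, h5⟩ := exists_sp (G := G) (L := lpAt φ) (i := k)
    (fun j => h4.le (div_mem_chart G.y k j)) fun j => by
      rw [h3, LP.v_div (h0 j) h1]
      exact h2 j (Finset.mem_univ j)
  obtain ⟨J, hJ⟩ := Cns.exists_crd_y b hx
  refine ⟨_, crd_of_sp h4 hx h5 hJ, Red.algIndep_of_r (R := R) (fun l => G.div_mem _ _) ?_⟩
  simp only [G.r_div]
  exact algIndep_of_crd b hJ

/-- **the generic fibre is smooth** -/
theorem sm {n : ℕ} (b : Module.Basis (Fin n) F Ω[F⁄ℂ]) : G.Sm := fun i => by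
  have := Res.Out.finiteType_chart (k := ℂ) G.y i
  refine Res.Out.smooth_of_coords fun φ => ?_
  obtain ⟨h1, T, h2, h3⟩ := G.exists_crd b i φ
  rw [AN.A2P.lo_eq]
  exact ⟨n, _, AN.A2P.coords_of_crd h1 h2 h3⟩

include G in
theorem basis {n : ℕ} (b : Module.Basis (Fin n) F Ω[F⁄ℂ]) :
    Nonempty (Module.Basis (Fin n) E Ω[E⁄ℂ]) := by
  have := Res.Out.finiteType_chart (k := ℂ) G.y 0
  obtain ⟨φ, -⟩ := KT.exists_point_of_ne_top (𝕜 := ℂ) (⊥ : Ideal (chart ℂ G.y 0)) bot_ne_top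
  obtain ⟨h1, T, h2, h3⟩ := G.exists_crd b 0 φ
  exact AN.A2P.exists_basis h1 h2 h3

theorem essFT (h : G.Sm) : Algebra.EssFiniteType ℂ E := essFiniteType (G.gen h)

end Pre

end Crest.Agent.X262.Alg44
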