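import Crest.Agent.X262.Alg44.Gen
import Crest.Agent.X262.Fam99.Inst
import Crest.Agent.X262.Deg38.Inst
import Crest.Agent.X262.Pui27.Fld
import Crest.Agent.X262.Sp78.K3
import Crest.Agent.X262.KV.Qch
import Crest.Agent.X262.Gen28.Main
import Crest.Agent.X262.Ufd9.Main

/-!
# Row 262, G4 / ALG (helper44), part 4: the glue

* `tw`, `tw2` : the fields of Puiseux series;
* `alg_of`    : a formal family of K3 surfaces and lines gives a cubic with `HXL`.
-/

set_option autoImplicit false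

noncomputable section

namespace Crest.Agent.X262.Alg44

open Crest.Agent.X277 Crest.Agent.X277.Lef Crest.Agent.X277.AN.G1 Crest.Agent.X277.BD
open Crest.Agent.X277.BD.Br (On oP kP)
open Crest.Agent.X262.Top (Lines SmCub HXL)
open Crest.Agent.X262.Surf (B2 Chi)
open Crest.Agent.X262.Fam99 (fld pre)
open Crest.Agent.X262.Pui27

/-- the field of Puiseux series -/
def tw (F : Type) [Field F] [Algebra ℂ F] : Fam99.Tw F (PE F) where
  R := red F
  ie := ie
  inj _ := ie_injective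
  exp _ _ he hk := ie_exp he hk
  th := th
  ie_map _ := ie_map
  mem _ := ie_mem
  r_ie _ := r_ie
  lev _ := lev_one
  levc _ := lev_one_o

variable {F L : Type} [Field F] [Algebra ℂ F] [Field L] [Algebra ℂ L]
  {P : PModel ℂ F} {G₀ : MvPolynomial (Fin 6) ℂ}

/-- the fields of Puiseux series over the surface and its square -/
def tw2 (Λ : Lines G₀ F L) : Deg38.Tw Λ (PE F) (PE L) where
  RF := red F
  RL := red L
  iF := ie 1 one_ne_zero
  iL := ie 1 one_ne_zero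
  t := th 1 one_ne_zero
  p := pm Λ.ι
  s := pm Λ.τ
  co := hs
  iF_O f := ⟨ie_mem _ f, r_ie _ f⟩
  iL_O f := ⟨ie_mem _ f, r_ie _ f⟩
  iL_map := ie_map _
  p_i := pm_ie _ _
  s_i := pm_ie _ _
  s_s x := by
    rw [pm_pm, show Λ.τ.comp Λ.τ = AlgHom.id ℂ L from AlgHom.ext Λ.inv, pm_id]
  p_O x hx := ⟨(pm_mem _).2 hx, r_pm _ x⟩
  s_O x hx := ⟨(pm_mem _).2 hx, r_pm _ x⟩
  co_p x := ⟨hs x, hs_pm _ x⟩
  co_s := hs_pm _
  co_i := hs_ie _
  co_r x _ := red_r x

/-- **ALG** -/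
theorem alg_of [Algebra.EssFiniteType ℂ F] {Λ : Lines G₀ F L} (hQ : KV.IrrQ) (b : B2 F) (T : Fam P)
    (hc : Chi P b 2) (hK : Lin (kP P b) 0) (hT : T.Rigid) {n : ℕ}
    (hn : ∀ M ∈ On P, ∀ k : ℤ, (∀ a ∈ On P, bnum [oP P - k • M, a] = 0) → (n : ℤ) ≤ bnum [M, M])
    (hG : SmCub G₀) (N : LFam T Λ) : ∃ G, SmCub G ∧ HXL n G := by
  have h := (pre (tw F) T Gen28.genSecStmt).sm b
  obtain ⟨b'⟩ := (pre (tw F) T Gen28.genSecStmt).basis b
  have := (pre (tw F) T Gen28.genSecStmt).essFT h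
  obtain ⟨d, h1, h2⟩ := Sp78.k3Stmt2 _ b h b' n (Fam99.pic Ufd9.ufdStmt b) (Fam99.rig hT) hc hK
    (KV.irr_of_chi hQ) hn
  obtain ⟨G, L', _, _, h3, h4⟩ := Deg38.deg_of (tw2 Λ) N (fld (tw F) T).val
    (pre (tw F) T Gen28.genSecStmt) h b' hG fun f hf => Fam99.hFS h hf
  exact ⟨G, h3, _, _, _, this, d, L', _, _, h1, h2, h4⟩

end Crest.Agent.X262.Alg44
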